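import Vale.Agent.P154.Tree.Criterion
import Mathlib.Analysis.Normed.Algebra.Exponential
import Mathlib.Analysis.SpecialFunctions.Exponential

/-!
# The regular and the Poisson offspring laws
-/

namespace Vale.Agent.P154.Tree

open Finset Filter Topology

theorem isLaw_regLaw (d : ℕ) : IsLaw (regLaw d) (d : ℝ) where
  nonneg k := by unfold regLaw; split_ifs <;> norm_num
  hasSum := by
    show HasSum (fun k : ℕ => if k = d then (1 : ℝ) else 0) 1
    exact hasSum_ite_eq d 1
  mean := by
    have h : (fun k : ℕ => (k : ℝ) * regLaw d k) = fun k => if k = d then (d : ℝ) else 0 := by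
      funext k
      unfold regLaw
      split_ifs with hk <;> simp [hk]
    rw [h]
    exact hasSum_ite_eq d (d : ℝ)

theorem branchProb_regLaw {d : ℕ} (hd : 2 ≤ d) : branchProb (regLaw d) = 1 := by
  have h : (fun k : ℕ => if 2 ≤ k then regLaw d k else 0)
      = fun k => if k = d then (1 : ℝ) else 0 := by
    funext k
    unfold regLaw
    rcases eq_or_ne k d with hk | hk
    · simp [hk, hd]
    · simp [hk]
  rw [branchProb, h, tsum_ite_eq]

theorem isLaw_poissonLaw {d : ℝ} (hd : 0 ≤ d) : IsLaw (poissonLaw d) d := by
  have hser : HasSum (fun k : ℕ => d ^ k / k.factorial) (Real.exp d) := by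
    rw [Real.exp_eq_exp_ℝ]
    exact NormedSpace.expSeries_div_hasSum_exp d
  have h1 : HasSum (poissonLaw d) 1 := by
    have h := hser.mul_left (Real.exp (-d))
    rw [← Real.exp_add, neg_add_cancel, Real.exp_zero] at h
    exact h.congr_fun fun k => by simp [poissonLaw, mul_div_assoc]
  refine ⟨fun k => by unfold poissonLaw; positivity, h1, ?_⟩
  have h2 : HasSum (fun k : ℕ => ((k + 1 : ℕ) : ℝ) * poissonLaw d (k + 1)) d := by
    have h := h1.mul_left d
    rw [mul_one] at h
    refine h.congr_fun fun k => ?_
    unfold poissonLaw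
    rw [Nat.factorial_succ]
    push_cast
    field_simp
    ring
  have := (hasSum_nat_add_iff (f := fun k : ℕ => (k : ℝ) * poissonLaw d k) 1).1 h2
  simpa using this

theorem branchProb_poissonLaw_pos {d : ℝ} (hd : 0 < d) : 0 < branchProb (poissonLaw d) := by
  have hw := isLaw_poissonLaw hd.le
  have hs : Summable fun k : ℕ => if 2 ≤ k then poissonLaw d k else 0 :=
    Summable.of_nonneg_of_le (fun k => by split_ifs <;> simp [hw.nonneg k])
      (fun k => by split_ifs <;> simp [hw.nonneg k]) hw.hasSum.summable
  refine hs.tsum_pos (fun k => by split_ifs <;> simp [hw.nonneg k]) 2 ?_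
  simp only [le_refl, if_true]
  unfold poissonLaw
  positivity

end Vale.Agent.P154.Tree
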