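import Vale.Agent.P154.Tree.Laws
import Mathlib.Analysis.Normed.Ring.InfiniteSum
import Mathlib.Order.LiminfLimsup
import Mathlib.Tactic

/-!
# The Kesten–Stigum side: reconstruction for `d * lam ^ 2 > 1`

Second-moment bound for the census of the spins at depth `n`.
-/

namespace Vale.Agent.P154.Tree

open Finset Filter Topology

variable {q : ℕ} {ι κ : Type}

/-- The centred census of spin `i` among the observed spins. -/
noncomputable def census (q : ℕ) : (n : ℕ) → Obs q n → Fin q → ℝ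
  | 0, o, i => (if (show Fin q from o) = i then 1 else 0) - 1 / q
  | n + 1, ⟨k, g⟩, i => ∑ c : Fin k, census q n (g c) i

theorem hasSum_prod_mul {f : ι → ℝ} {g : κ → ℝ} {a b : ℝ} (hf : HasSum f a) (hg : HasSum g b) :
    HasSum (fun p : ι × κ => f p.1 * g p.2) (a * b) :=
  HasSum.mul (f := f) (g := g) hf hg (summable_mul_of_summable_norm (f := f) (g := g)
    (summable_norm_iff.2 hf.summable) (summable_norm_iff.2 hg.summable))

/-- First two moments of a sum of independent copies. -/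
theorem hasSum_pi_moments {y X : ι → ℝ} {m v : ℝ} (h1 : HasSum y 1)
    (hm : HasSum (fun o => y o * X o) m) (hv : HasSum (fun o => y o * X o ^ 2) v) :
    ∀ k : ℕ, HasSum (fun g : Fin k → ι => ∏ a, y (g a)) 1 ∧
      HasSum (fun g : Fin k → ι => (∏ a, y (g a)) * ∑ a, X (g a)) (k * m) ∧
      HasSum (fun g : Fin k → ι => (∏ a, y (g a)) * (∑ a, X (g a)) ^ 2)
        (k * v + k * ((k : ℝ) - 1) * m ^ 2) := by
  intro k
  induction k with
  | zero =>
    refine ⟨?_, ?_, ?_⟩
    · simp
    · simp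
    · simp
  | succ k ih =>
    obtain ⟨i1, i2, i3⟩ := ih
    let E : ι × (Fin k → ι) ≃ (Fin (k + 1) → ι) := Fin.consEquiv fun _ : Fin (k + 1) => ι
    refine ⟨?_, ?_, ?_⟩
    · refine E.hasSum_iff.1 ?_
      have h := hasSum_prod_mul h1 i1
      rw [mul_one] at h
      refine h.congr_fun fun p => ?_
      simp [E, Fin.prod_univ_succ]
    · refine E.hasSum_iff.1 ?_
      have h := (hasSum_prod_mul hm i1).add (hasSum_prod_mul h1 i2)
      rw [show m * 1 + 1 * (k * m) = ((k + 1 : ℕ) : ℝ) * m by push_cast; ring] at h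
      refine h.congr_fun fun p => ?_
      simp [E, Fin.prod_univ_succ, Fin.sum_univ_succ]
      ring
    · refine E.hasSum_iff.1 ?_
      have h := ((hasSum_prod_mul hv i1).add ((hasSum_prod_mul hm i2).mul_left 2)).add
        (hasSum_prod_mul h1 i3)
      rw [show v * 1 + 2 * (m * (k * m)) + 1 * (k * v + k * ((k : ℝ) - 1) * m ^ 2)
        = ((k + 1 : ℕ) : ℝ) * v + ((k + 1 : ℕ) : ℝ) * (((k + 1 : ℕ) : ℝ) - 1) * m ^ 2 by
        push_cast; ring] at h
      refine h.congr_fun fun p => ?_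
      simp [E, Fin.prod_univ_succ, Fin.sum_univ_succ]
      ring

variable {w : ℕ → ℝ} {d lam M : ℝ}

theorem sum_potts (hq : q ≠ 0) (j : Fin q) : ∑ l, potts q lam j l = 1 := by
  have hq' : (q : ℝ) ≠ 0 := by exact_mod_cast hq
  simp only [potts, sum_add_distrib, sum_ite_eq, mem_univ, if_true, sum_const, card_univ,
    Fintype.card_fin, nsmul_eq_mul]
  field_simp
  ring

theorem sum_potts_centred (hq : q ≠ 0) (i j : Fin q) :
    ∑ l, potts q lam j l * ((if l = i then (1 : ℝ) else 0) - 1 / q)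
      = lam * ((if j = i then (1 : ℝ) else 0) - 1 / q) := by
  have hq' : (q : ℝ) ≠ 0 := by exact_mod_cast hq
  simp only [mul_sub, sum_sub_distrib, mul_ite, mul_one, mul_zero, sum_ite_eq', mem_univ, if_true,
    ← sum_mul, sum_potts hq j]
  unfold potts
  split_ifs <;> field_simp <;> ring

theorem centred_sq_le_one (hq : q ≠ 0) (i j : Fin q) :
    ((if j = i then (1 : ℝ) else 0) - 1 / q) ^ 2 ≤ 1 := by
  have h1 : (1 : ℝ) ≤ q := by exact_mod_cast Nat.pos_of_ne_zero hq
  have h2 : (1 : ℝ) / q ≤ 1 := by rw [div_le_one (by linarith)]; exact h1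
  have h3 : (0 : ℝ) ≤ 1 / q := by positivity
  split_ifs <;> nlinarith

/-- First two moments at a vertex with an offspring law `w`. -/
theorem hasSum_vertex (hw : IsLaw w d)
    (hM : HasSum (fun k : ℕ => (k : ℝ) * ((k : ℝ) - 1) * w k) M) {y X : ι → ℝ} {m v : ℝ}
    (hyn : ∀ o, 0 ≤ y o) (h1 : HasSum y 1) (hm : HasSum (fun o => y o * X o) m)
    (hv : HasSum (fun o => y o * X o ^ 2) v) :
    HasSum (fun x : (Σ k : ℕ, (Fin k → ι)) => w x.1 * (∏ a, y (x.2 a)) * ∑ a, X (x.2 a))
        (d * m) ∧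
      HasSum (fun x : (Σ k : ℕ, (Fin k → ι)) =>
        w x.1 * (∏ a, y (x.2 a)) * (∑ a, X (x.2 a)) ^ 2) (d * v + M * m ^ 2) := by
  have hP := hasSum_pi_moments h1 hm hv
  have hN : ∀ x : (Σ k : ℕ, (Fin k → ι)), 0 ≤ w x.1 * ∏ a, y (x.2 a) :=
    fun x => mul_nonneg (hw.nonneg _) (prod_nonneg fun a _ => hyn _)
  have hk0 : ∀ k, HasSum (fun g : Fin k → ι => w k * ∏ a, y (g a)) (w k) := fun k => by
    simpa using (hP k).1.mul_left (w k)
  have hk1 : ∀ k, HasSum (fun g : Fin k → ι => w k * (∏ a, y (g a)) * ∑ a, X (g a))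
      (w k * (k * m)) := fun k =>
    ((hP k).2.1.mul_left (w k)).congr_fun fun g => mul_assoc _ _ _
  have hk2 : ∀ k, HasSum (fun g : Fin k → ι => w k * (∏ a, y (g a)) * (∑ a, X (g a)) ^ 2)
      (w k * (k * v + k * ((k : ℝ) - 1) * m ^ 2)) := fun k =>
    ((hP k).2.2.mul_left (w k)).congr_fun fun g => mul_assoc _ _ _
  have t1 : HasSum (fun k => w k * (k * m)) (d * m) :=
    (hw.mean.mul_right m).congr_fun fun k => by ring
  have t2 : HasSum (fun k => w k * (k * v + k * ((k : ℝ) - 1) * m ^ 2))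
      (d * v + M * m ^ 2) :=
    ((hw.mean.mul_right v).add (hM.mul_right (m ^ 2))).congr_fun fun k => by ring
  have hs0 : Summable fun x : (Σ k : ℕ, (Fin k → ι)) => w x.1 * ∏ a, y (x.2 a) :=
    (summable_sigma_of_nonneg hN).2
      ⟨fun k => (hk0 k).summable, hw.hasSum.summable.congr fun k => ((hk0 k).tsum_eq).symm⟩
  have hs2 : Summable fun x : (Σ k : ℕ, (Fin k → ι)) =>
      w x.1 * (∏ a, y (x.2 a)) * (∑ a, X (x.2 a)) ^ 2 :=
    (summable_sigma_of_nonneg fun x => mul_nonneg (hN x) (sq_nonneg _)).2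
      ⟨fun k => (hk2 k).summable, t2.summable.congr fun k => ((hk2 k).tsum_eq).symm⟩
  have hs1 : Summable fun x : (Σ k : ℕ, (Fin k → ι)) =>
      w x.1 * (∏ a, y (x.2 a)) * ∑ a, X (x.2 a) := by
    refine Summable.of_norm_bounded (hs0.add hs2) fun x => ?_
    rw [Real.norm_eq_abs, abs_mul, abs_of_nonneg (hN x)]
    nlinarith [hN x, sq_nonneg (|∑ a, X (x.2 a)| - 1), sq_abs (∑ a, X (x.2 a))]
  exact ⟨HasSum.sigma_of_hasSum t1 hk1 hs1, HasSum.sigma_of_hasSum t2 hk2 hs2⟩

theorem census_moments (hq : q ≠ 0) (hw : IsLaw w d)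
    (hM : HasSum (fun k : ℕ => (k : ℝ) * ((k : ℝ) - 1) * w k) M) (hl : Adm q lam)
    {K : ℝ} (hK1 : 1 ≤ K) (hK : d * K + M * lam ^ 2 ≤ K * (d * lam) ^ 2) :
    ∀ n (i j : Fin q),
      HasSum (fun o : Obs q n => lik q w lam n o j * census q n o i)
        ((d * lam) ^ n * ((if j = i then (1 : ℝ) else 0) - 1 / q)) ∧
      ∃ v, v ≤ K * ((d * lam) ^ 2) ^ n ∧
        HasSum (fun o : Obs q n => lik q w lam n o j * census q n o i ^ 2) v := by
  intro n
  induction n with
  | zero =>
    intro i j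
    refine ⟨?_, ((if j = i then (1 : ℝ) else 0) - 1 / q) ^ 2, ?_, ?_⟩
    · show HasSum (fun o : Fin q => (if o = j then (1 : ℝ) else 0)
        * ((if o = i then 1 else 0) - 1 / q)) _
      have h := hasSum_fintype fun o : Fin q => (if o = j then (1 : ℝ) else 0)
        * ((if o = i then 1 else 0) - 1 / q)
      simpa using h
    · simpa using (centred_sq_le_one hq i j).trans hK1
    · show HasSum (fun o : Fin q => (if o = j then (1 : ℝ) else 0)
        * ((if o = i then 1 else 0) - 1 / q) ^ 2) _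
      have h := hasSum_fintype fun o : Fin q => (if o = j then (1 : ℝ) else 0)
        * ((if o = i then 1 else 0) - 1 / q) ^ 2
      simpa using h
  | succ n ih =>
    intro i j
    have hC := isChan_lik hw hl n
    let y : Obs q n → ℝ := fun o => ∑ l, potts q lam j l * lik q w lam n o l
    let X : Obs q n → ℝ := fun o => census q n o i
    have hy1 : HasSum y 1 := (hC.edge' hl).hasSum j
    choose V hVle hV using fun l => (ih i l).2
    have hym : HasSum (fun o => y o * X o)
        (lam * ((if j = i then (1 : ℝ) else 0) - 1 / q) * (d * lam) ^ n) := by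
      have h := hasSum_sum (s := (univ : Finset (Fin q)))
        fun l _ => (ih i l).1.mul_left (potts q lam j l)
      rw [← sum_potts_centred hq i j, sum_mul]
      rw [show ∑ l, potts q lam j l * ((if l = i then (1 : ℝ) else 0) - 1 / q) * (d * lam) ^ n
        = ∑ l, potts q lam j l * ((d * lam) ^ n * ((if l = i then (1 : ℝ) else 0) - 1 / q)) from
        sum_congr rfl fun l _ => by ring]
      refine h.congr_fun fun o => ?_
      simp only [y, X, sum_mul, mul_assoc]
    have hyv : HasSum (fun o => y o * X o ^ 2) (∑ l, potts q lam j l * V l) := by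
      refine (hasSum_sum (s := (univ : Finset (Fin q)))
        fun l _ => (hV l).mul_left (potts q lam j l)).congr_fun fun o => ?_
      simp only [y, X, sum_mul, mul_assoc]
    have hvle : ∑ l, potts q lam j l * V l ≤ K * ((d * lam) ^ 2) ^ n := by
      refine (sum_le_sum fun l _ => mul_le_mul_of_nonneg_left (hVle l) (hl j l)).trans_eq ?_
      rw [← sum_mul, sum_potts hq j, one_mul]
    set m := lam * ((if j = i then (1 : ℝ) else 0) - 1 / q) * (d * lam) ^ n with hmdef
    set v := ∑ l, potts q lam j l * V l with hvdef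
    have hyn : ∀ o, 0 ≤ y o := fun o =>
      sum_nonneg fun l _ => mul_nonneg (hl j l) (hC.nonneg o l)
    obtain ⟨hS1, hS2⟩ := hasSum_vertex hw hM hyn hy1 hym hyv
    refine ⟨?_, d * v + M * m ^ 2, ?_, ?_⟩
    · rw [show (d * lam) ^ (n + 1) * ((if j = i then (1 : ℝ) else 0) - 1 / q) = d * m by
        rw [hmdef, pow_succ]; ring]
      exact hS1.congr_fun fun x => rfl
    · have hd : 0 ≤ d := hw.mean.nonneg fun k => mul_nonneg (Nat.cast_nonneg k) (hw.nonneg k)
      have hM0 : 0 ≤ M := hM.nonneg fun k => by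
        rcases Nat.eq_zero_or_pos k with h | h
        · simp [h]
        · have : (1 : ℝ) ≤ k := by exact_mod_cast h
          exact mul_nonneg (mul_nonneg (Nat.cast_nonneg k) (by linarith)) (hw.nonneg k)
      have hA : 0 ≤ ((d * lam) ^ 2) ^ n := by positivity
      have hm2 : m ^ 2 ≤ lam ^ 2 * ((d * lam) ^ 2) ^ n := by
        rw [hmdef, mul_pow, mul_pow, ← pow_mul, mul_comm n 2, pow_mul]
        exact mul_le_mul_of_nonneg_right
          (mul_le_of_le_one_right (sq_nonneg _) (centred_sq_le_one hq i j)) hA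
      calc d * v + M * m ^ 2
          ≤ d * (K * ((d * lam) ^ 2) ^ n) + M * (lam ^ 2 * ((d * lam) ^ 2) ^ n) :=
            add_le_add (mul_le_mul_of_nonneg_left hvle hd) (mul_le_mul_of_nonneg_left hm2 hM0)
        _ = (d * K + M * lam ^ 2) * ((d * lam) ^ 2) ^ n := by ring
        _ ≤ K * (d * lam) ^ 2 * ((d * lam) ^ 2) ^ n := mul_le_mul_of_nonneg_right hK hA
        _ = K * ((d * lam) ^ 2) ^ (n + 1) := by ring
    · exact hS2.congr_fun fun x => rfl

theorem adv_summable (hw : IsLaw w d) (hl : Adm q lam) (n : ℕ) :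
    Summable fun o : Obs q n => (1 / (2 * (q : ℝ))) *
      ∑ i, |lik q w lam n o i - (∑ j, lik q w lam n o j) / q| := by
  have hC := isChan_lik (q := q) hw hl n
  refine Summable.mul_left _ (Summable.of_nonneg_of_le
    (fun o => sum_nonneg fun i _ => abs_nonneg _) (fun o => ?_)
    (hC.hasSum_mass.summable.mul_left 2))
  rcases Nat.eq_zero_or_pos q with h | h
  · subst h; simp
  calc ∑ i, |lik q w lam n o i - (∑ j, lik q w lam n o j) / q|
      ≤ ∑ i : Fin q, (lik q w lam n o i + (∑ j, lik q w lam n o j) / q) := by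
        refine sum_le_sum fun i _ => ?_
        have h1 := hC.nonneg o i
        have h2 : 0 ≤ (∑ j, lik q w lam n o j) / (q : ℝ) :=
          div_nonneg (hC.mass_nonneg o) (Nat.cast_nonneg q)
        rw [abs_le]
        constructor <;> linarith
    _ = 2 * ∑ i, lik q w lam n o i := by
        rw [sum_add_distrib, sum_const, card_univ, Fintype.card_fin, nsmul_eq_mul,
          mul_div_cancel₀ _ (by positivity)]
        ring

/-- Above the Kesten–Stigum threshold the advantage is bounded below uniformly in the depth. -/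
theorem exists_adv_lower_bound (hq : 2 ≤ q) (hw : IsLaw w d)
    (hM : HasSum (fun k : ℕ => (k : ℝ) * ((k : ℝ) - 1) * w k) M) (hl : Adm q lam)
    (hks : 1 < d * lam ^ 2) :
    ∃ c : ℝ, 0 < c ∧ ∀ n, c ≤ adv q w lam n := by
  have hq0 : q ≠ 0 := by omega
  have hq' : (2 : ℝ) ≤ q := by exact_mod_cast hq
  have hd0 : 0 ≤ d := hw.mean.nonneg fun k => mul_nonneg (Nat.cast_nonneg k) (hw.nonneg k)
  have hd : 0 < d := by
    rcases hd0.lt_or_eq with h | h
    · exact h
    · exfalso; rw [← h] at hks; norm_num at hks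
  have hgap : 0 < (d * lam) ^ 2 - d := by nlinarith
  obtain ⟨K, hK1, hK⟩ : ∃ K : ℝ, 1 ≤ K ∧ d * K + M * lam ^ 2 ≤ K * (d * lam) ^ 2 := by
    refine ⟨max 1 (M * lam ^ 2 / ((d * lam) ^ 2 - d)), le_max_left _ _, ?_⟩
    have h := (div_le_iff₀ hgap).1 (le_max_right 1 (M * lam ^ 2 / ((d * lam) ^ 2 - d)))
    nlinarith
  have hq1 : (0 : ℝ) < (q : ℝ) - 1 := by linarith
  set A : ℝ := 2 * (q : ℝ) ^ 2 * K / ((q : ℝ) - 1) with hA
  have hApos : 0 < A := by positivity
  refine ⟨((q : ℝ) - 1) / (4 * q * A), by positivity, fun n => ?_⟩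
  have hC := isChan_lik (q := q) hw hl n
  have hmom := census_moments hq0 hw hM hl hK1 hK n
  have hdl : d * lam ≠ 0 := by
    intro h
    rw [h] at hgap
    nlinarith
  have hp : (d * lam) ^ n ≠ 0 := pow_ne_zero n hdl
  let T : Obs q n → Fin q → ℝ := fun o i => census q n o i / (d * lam) ^ n
  let D : Obs q n → Fin q → ℝ :=
    fun o i => lik q w lam n o i - (∑ j, lik q w lam n o j) / q
  have hT1 : ∀ i j, HasSum (fun o => lik q w lam n o j * T o i)
      ((if j = i then (1 : ℝ) else 0) - 1 / q) := fun i j => by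
    have h := (hmom i j).1.div_const ((d * lam) ^ n)
    rw [mul_div_cancel_left₀ _ hp] at h
    exact h.congr_fun fun o => by simp only [T, mul_div_assoc]
  choose V hVle hV using fun i j => (hmom i j).2
  have hT2 : ∀ i j, ∃ u, u ≤ K ∧ HasSum (fun o => lik q w lam n o j * T o i ^ 2) u :=
    fun i j => by
    refine ⟨V i j / ((d * lam) ^ 2) ^ n, ?_, ?_⟩
    · rw [div_le_iff₀ (pow_pos (by positivity) n)]
      exact hVle i j
    · refine ((hV i j).div_const (((d * lam) ^ 2) ^ n)).congr_fun fun o => ?_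
      simp only [T, div_pow, ← pow_mul, mul_comm n 2, mul_div_assoc]
  choose U hUle hU using hT2
  have hsig : HasSum (fun o => ∑ i, D o i * T o i) ((q : ℝ) - 1) := by
    have h := hasSum_sum (s := (univ : Finset (Fin q))) fun i _ =>
      (hT1 i i).sub ((hasSum_sum (s := (univ : Finset (Fin q))) fun j _ => hT1 i j).div_const
        (q : ℝ))
    have hval : ∑ i : Fin q, ((if i = i then (1 : ℝ) else 0) - 1 / q
        - (∑ j : Fin q, ((if j = i then (1 : ℝ) else 0) - 1 / q)) / q) = (q : ℝ) - 1 := by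
      simp only [if_true, sum_sub_distrib, sum_ite_eq', mem_univ, sum_const, card_univ,
        Fintype.card_fin, nsmul_eq_mul]
      field_simp
      ring
    rw [hval] at h
    refine h.congr_fun fun o => sum_congr rfl fun i _ => ?_
    simp only [D, sub_mul, div_mul_eq_mul_div, sum_mul]
  have hsec : HasSum (fun o => ∑ i, (∑ j, lik q w lam n o j) * T o i ^ 2)
      (∑ i, ∑ j, U i j) := by
    refine (hasSum_sum (s := (univ : Finset (Fin q))) fun i _ =>
      hasSum_sum (s := (univ : Finset (Fin q))) fun j _ => hU i j).congr_fun fun o => ?_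
    simp only [sum_mul]
  have hadv : HasSum (fun o => (1 / (2 * (q : ℝ))) * ∑ i, |D o i|) (adv q w lam n) :=
    (adv_summable hw hl n).hasSum
  have hR := (hadv.mul_left (2 * q * A)).add (hsec.mul_left (1 / A))
  have hpt : ∀ o, ∑ i, D o i * T o i ≤ 2 * q * A * ((1 / (2 * (q : ℝ))) * ∑ i, |D o i|)
      + 1 / A * ∑ i, (∑ j, lik q w lam n o j) * T o i ^ 2 := fun o => by
    rw [show 2 * (q : ℝ) * A * ((1 / (2 * (q : ℝ))) * ∑ i, |D o i|) = A * ∑ i, |D o i| by
      field_simp, mul_sum, mul_sum, ← sum_add_distrib]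
    refine sum_le_sum fun i _ => ?_
    have h1 := hC.nonneg o i
    have hm : lik q w lam n o i ≤ ∑ j, lik q w lam n o j :=
      single_le_sum (fun j _ => hC.nonneg o j) (mem_univ i)
    have hDm : |D o i| ≤ ∑ j, lik q w lam n o j := by
      have h2 : (∑ j, lik q w lam n o j) / (q : ℝ) ≤ ∑ j, lik q w lam n o j :=
        div_le_self (hC.mass_nonneg o) (by linarith)
      have h3 : 0 ≤ (∑ j, lik q w lam n o j) / (q : ℝ) :=
        div_nonneg (hC.mass_nonneg o) (Nat.cast_nonneg q)
      simp only [D]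
      rw [abs_le]
      constructor <;> linarith
    have key : |T o i| ≤ A + 1 / A * T o i ^ 2 := by
      rw [← sq_abs (T o i)]
      field_simp
      nlinarith [sq_nonneg (|T o i| - A), abs_nonneg (T o i)]
    calc D o i * T o i ≤ |D o i| * |T o i| := by rw [← abs_mul]; exact le_abs_self _
      _ ≤ |D o i| * (A + 1 / A * T o i ^ 2) := mul_le_mul_of_nonneg_left key (abs_nonneg _)
      _ = A * |D o i| + 1 / A * (|D o i| * T o i ^ 2) := by ring
      _ ≤ _ := by gcongr
  have hineq := hasSum_le hpt hsig hR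
  have hsum : ∑ i, ∑ j, U i j ≤ (q : ℝ) ^ 2 * K := by
    refine (sum_le_sum fun i _ => sum_le_sum fun j _ => hUle i j).trans_eq ?_
    simp only [sum_const, card_univ, Fintype.card_fin, nsmul_eq_mul]
    ring
  have h2 : 1 / A * ∑ i, ∑ j, U i j ≤ ((q : ℝ) - 1) / 2 := by
    refine (mul_le_mul_of_nonneg_left hsum (by positivity)).trans_eq ?_
    rw [hA]
    field_simp
  rw [div_le_iff₀ (by positivity)]
  nlinarith

theorem adv_le_q (hw : IsLaw w d) (hl : Adm q lam) (n : ℕ) : adv q w lam n ≤ 1 := by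
  rcases Nat.eq_zero_or_pos q with h | h
  · subst h; simp [adv]
  have hC := isChan_lik (q := q) hw hl n
  have hR := (hC.hasSum_mass.mul_left 2).mul_left (1 / (2 * (q : ℝ)))
  rw [show 1 / (2 * (q : ℝ)) * (2 * (q : ℝ)) = 1 by field_simp] at hR
  refine hasSum_le (fun o => mul_le_mul_of_nonneg_left ?_ (by positivity))
    (adv_summable hw hl n).hasSum hR
  calc ∑ i, |lik q w lam n o i - (∑ j, lik q w lam n o j) / q|
      ≤ ∑ i : Fin q, (lik q w lam n o i + (∑ j, lik q w lam n o j) / q) := by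
        refine sum_le_sum fun i _ => ?_
        have h1 := hC.nonneg o i
        have h2 : 0 ≤ (∑ j, lik q w lam n o j) / (q : ℝ) :=
          div_nonneg (hC.mass_nonneg o) (Nat.cast_nonneg q)
        rw [abs_le]
        constructor <;> linarith
    _ = 2 * ∑ i, lik q w lam n o i := by
        rw [sum_add_distrib, sum_const, card_univ, Fintype.card_fin, nsmul_eq_mul,
          mul_div_cancel₀ _ (by positivity)]
        ring

/-- Reconstruction above the Kesten–Stigum threshold. -/
theorem reconstruction_of_KS (hq : 2 ≤ q) (hw : IsLaw w d)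
    (hM : HasSum (fun k : ℕ => (k : ℝ) * ((k : ℝ) - 1) * w k) M) (hl : Adm q lam)
    (hks : 1 < d * lam ^ 2) :
    0 < liminf (adv q w lam) atTop ∧ ¬ Tendsto (adv q w lam) atTop (𝓝 0) := by
  obtain ⟨c, hc, hb⟩ := exists_adv_lower_bound hq hw hM hl hks
  refine ⟨lt_of_lt_of_le hc (le_liminf_of_le ?_ (Eventually.of_forall hb)), fun h => ?_⟩
  · exact IsBoundedUnder.isCoboundedUnder_ge
      (isBoundedUnder_of ⟨1, fun n => adv_le_q hw hl n⟩)
  · exact absurd (ge_of_tendsto' h hb) (not_le.2 hc)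

theorem hasSum_regLaw_two (d : ℕ) :
    HasSum (fun k : ℕ => (k : ℝ) * ((k : ℝ) - 1) * regLaw d k) ((d : ℝ) * ((d : ℝ) - 1)) :=
  (hasSum_ite_eq d ((d : ℝ) * ((d : ℝ) - 1))).congr_fun fun k => by
    unfold regLaw
    split_ifs with h <;> simp [h]

theorem hasSum_poissonLaw_two {d : ℝ} (hd : 0 ≤ d) :
    HasSum (fun k : ℕ => (k : ℝ) * ((k : ℝ) - 1) * poissonLaw d k) (d ^ 2) := by
  have h := (isLaw_poissonLaw hd).hasSum.mul_left (d ^ 2)
  rw [mul_one] at h
  have h2 : HasSum (fun k : ℕ => ((k + 2 : ℕ) : ℝ) * (((k + 2 : ℕ) : ℝ) - 1)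
      * poissonLaw d (k + 2)) (d ^ 2) := by
    refine h.congr_fun fun k => ?_
    unfold poissonLaw
    rw [Nat.factorial_succ, Nat.factorial_succ]
    push_cast
    field_simp
    ring
  have := (hasSum_nat_add_iff
    (f := fun k : ℕ => (k : ℝ) * ((k : ℝ) - 1) * poissonLaw d k) 2).1 h2
  simpa [Finset.sum_range_succ] using this

theorem reconstruction_regLaw (hq : 2 ≤ q) (d : ℕ) {lam : ℝ} (hl : Adm q lam)
    (hks : 1 < (d : ℝ) * lam ^ 2) :
    0 < liminf (adv q (regLaw d) lam) atTop ∧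
      ¬ Tendsto (adv q (regLaw d) lam) atTop (𝓝 0) :=
  reconstruction_of_KS hq (isLaw_regLaw d) (hasSum_regLaw_two d) hl hks

theorem reconstruction_poissonLaw (hq : 2 ≤ q) {d lam : ℝ} (hd : 0 ≤ d) (hl : Adm q lam)
    (hks : 1 < d * lam ^ 2) :
    0 < liminf (adv q (poissonLaw d) lam) atTop ∧
      ¬ Tendsto (adv q (poissonLaw d) lam) atTop (𝓝 0) :=
  reconstruction_of_KS hq (isLaw_poissonLaw hd) (hasSum_poissonLaw_two hd) hl hks

end Vale.Agent.P154.Tree
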