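import Vale.Agent.P154.Tree.Defs
import Mathlib.Data.Fintype.Perm
import Mathlib.Analysis.Normed.Ring.InfiniteSum
import Mathlib.Analysis.Normed.Module.FiniteDimension
import Mathlib.Algebra.BigOperators.Field
import Mathlib.Tactic

/-!
# Channels as families of likelihood vectors
-/

namespace Vale.Agent.P154.Tree

open Finset

variable {q : ℕ} {ι κ : Type}

/-- A channel: a family of likelihood vectors, total weight one for each root spin. -/
structure IsChan (X : ι → Fin q → ℝ) : Prop where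
  nonneg : ∀ o i, 0 ≤ X o i
  hasSum : ∀ i, HasSum (fun o => X o i) 1

/-- Invariance of a channel under relabelling of the spins. -/
def IsSymm (X : ι → Fin q → ℝ) : Prop :=
  ∀ σ : Equiv.Perm (Fin q), ∃ e : ι ≃ ι, ∀ o i, X (e o) (σ i) = X o i

/-- Two conditionally independent observations. -/
def mulChan (X : ι → Fin q → ℝ) (Y : κ → Fin q → ℝ) : ι × κ → Fin q → ℝ :=
  fun p i => X p.1 i * Y p.2 i

/-- Observation through an edge. -/
noncomputable def edge (lam : ℝ) (X : ι → Fin q → ℝ) : ι → Fin q → ℝ :=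
  fun o i => ∑ j, potts q lam i j * X o j

/-- `F` is dominated by a multiple of the total mass on nonnegative vectors. -/
def MassBdd (F : (Fin q → ℝ) → ℝ) : Prop :=
  ∃ K : ℝ, ∀ x : Fin q → ℝ, (∀ i, 0 ≤ x i) → |F x| ≤ K * ∑ i, x i

/-- Degree-one homogeneous extension of a function on the simplex. -/
noncomputable def homExt (f : (Fin q → ℝ) → ℝ) (x : Fin q → ℝ) : ℝ :=
  (∑ i, x i) * f (fun i => x i / ∑ j, x j)

/-- Centred squared norm of a point of the simplex. -/
noncomputable def sqDev (u : Fin q → ℝ) : ℝ := ∑ i, (u i - 1 / q) ^ 2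

/-- Its homogeneous extension. -/
noncomputable def SS (x : Fin q → ℝ) : ℝ := homExt sqDev x

/-- Sum of a functional over a channel. -/
noncomputable def total (F : (Fin q → ℝ) → ℝ) (X : ι → Fin q → ℝ) : ℝ :=
  ∑' o, F (X o)

theorem potts_nonneg {lam : ℝ} (h0 : 0 ≤ lam) (h1 : lam ≤ 1) (i j : Fin q) :
    0 ≤ potts q lam i j := by
  unfold potts
  have h1' : 0 ≤ 1 - lam := by linarith
  split_ifs <;> positivity

/-- Admissible edge parameters: the channel has nonnegative entries. -/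
def Adm (q : ℕ) (lam : ℝ) : Prop := ∀ i j : Fin q, 0 ≤ potts q lam i j

theorem adm_of_unit {lam : ℝ} (h0 : 0 ≤ lam) (h1 : lam ≤ 1) : Adm q lam :=
  fun i j => potts_nonneg h0 h1 i j

theorem adm_of_range {lam : ℝ} (hq : 2 ≤ q) (h0 : -(1 / ((q : ℝ) - 1)) ≤ lam) (h1 : lam ≤ 1) :
    Adm q lam := by
  intro i j
  have hq1 : (0 : ℝ) < (q : ℝ) - 1 := by
    have : (2 : ℝ) ≤ q := by exact_mod_cast hq
    linarith
  have hq0 : (0 : ℝ) < q := by linarith
  have key : 0 ≤ lam * ((q : ℝ) - 1) + 1 := by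
    have := mul_le_mul_of_nonneg_right h0 hq1.le
    rw [neg_mul, one_div_mul_cancel hq1.ne'] at this
    linarith
  unfold potts
  split_ifs
  · rw [show lam + (1 - lam) / (q : ℝ) = (lam * ((q : ℝ) - 1) + 1) / q by field_simp; ring]
    positivity
  · exact add_nonneg le_rfl (div_nonneg (by linarith) hq0.le)

theorem edge_apply (lam : ℝ) (X : ι → Fin q → ℝ) (o : ι) (i : Fin q) :
    edge lam X o i = lam * X o i + (1 - lam) / q * ∑ j, X o j := by
  simp [edge, potts, add_mul, sum_add_distrib, mul_sum]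

theorem edge_mass (lam : ℝ) (X : ι → Fin q → ℝ) (o : ι) :
    ∑ i, edge lam X o i = ∑ i, X o i := by
  rcases Nat.eq_zero_or_pos q with h | h
  · subst h; simp
  · simp only [edge_apply, sum_add_distrib, ← mul_sum, sum_const, card_univ, Fintype.card_fin,
      nsmul_eq_mul]
    have : (q : ℝ) ≠ 0 := by positivity
    field_simp
    ring

namespace IsChan

variable {X : ι → Fin q → ℝ} {Y : κ → Fin q → ℝ}

theorem hasSum_mass (hX : IsChan X) : HasSum (fun o => ∑ i, X o i) (q : ℝ) := by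
  simpa using hasSum_sum (s := (univ : Finset (Fin q))) fun i _ => hX.hasSum i

theorem mass_nonneg (hX : IsChan X) (o : ι) : 0 ≤ ∑ i, X o i :=
  sum_nonneg fun i _ => hX.nonneg o i

theorem summable (hX : IsChan X) {F : (Fin q → ℝ) → ℝ} (hF : MassBdd F) :
    Summable fun o => F (X o) := by
  obtain ⟨K, hK⟩ := hF
  refine Summable.of_norm_bounded (hX.hasSum_mass.summable.mul_left K) fun o => ?_
  simpa using hK (X o) (hX.nonneg o)

theorem mul (hX : IsChan X) (hY : IsChan Y) : IsChan (mulChan X Y) where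
  nonneg p i := mul_nonneg (hX.nonneg _ _) (hY.nonneg _ _)
  hasSum i := by
    have hs : Summable fun p : ι × κ => X p.1 i * Y p.2 i :=
      (hX.hasSum i).summable.mul_of_nonneg (hY.hasSum i).summable
        (fun o => hX.nonneg o i) (fun o => hY.nonneg o i)
    have := (hX.hasSum i).mul (hY.hasSum i) hs
    simpa [mulChan] using this

theorem edge' (hX : IsChan X) {lam : ℝ} (hl : Adm q lam) :
    IsChan (edge lam X) where
  nonneg o i := sum_nonneg fun j _ => mul_nonneg (hl i j) (hX.nonneg o j)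
  hasSum i := by
    have h := hasSum_sum (s := (univ : Finset (Fin q))) fun j _ =>
      (hX.hasSum j).mul_left (potts q lam i j)
    have hs : ∑ j, potts q lam i j * 1 = 1 := by
      have hq : (q : ℝ) ≠ 0 := by exact_mod_cast (i.pos).ne'
      simp only [potts, mul_one, sum_add_distrib, sum_ite_eq, mem_univ, if_true, sum_const,
        card_univ, Fintype.card_fin, nsmul_eq_mul]
      field_simp
      ring
    rw [hs] at h
    exact h

end IsChan

theorem IsSymm.mul {X : ι → Fin q → ℝ} {Y : κ → Fin q → ℝ} (hX : IsSymm X) (hY : IsSymm Y) :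
    IsSymm (mulChan X Y) := by
  intro σ
  obtain ⟨e, he⟩ := hX σ
  obtain ⟨e', he'⟩ := hY σ
  exact ⟨e.prodCongr e', fun p i => by simp [mulChan, he, he']⟩

theorem IsSymm.edge' {X : ι → Fin q → ℝ} (hX : IsSymm X) (lam : ℝ) :
    IsSymm (edge lam X) := by
  intro σ
  obtain ⟨e, he⟩ := hX σ
  refine ⟨e, fun o i => ?_⟩
  simp only [edge_apply, he]
  congr 2
  rw [← Equiv.sum_comp σ]
  simp only [he]

theorem homExt_smul (f : (Fin q → ℝ) → ℝ) {a : ℝ} (x : Fin q → ℝ) :
    homExt f (fun i => a * x i) = a * homExt f x := by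
  rcases eq_or_ne a 0 with h | h
  · simp [homExt, h]
  · simp [homExt, ← mul_sum, mul_div_mul_left _ _ h, mul_assoc]

theorem homExt_of_sum_one (f : (Fin q → ℝ) → ℝ) {u : Fin q → ℝ} (hu : ∑ i, u i = 1) :
    homExt f u = f u := by
  simp [homExt, hu]

theorem exists_unit {x : Fin q → ℝ} (hx : ∀ i, 0 ≤ x i) (hm : ∑ i, x i ≠ 0) :
    (∀ i, 0 ≤ x i / ∑ j, x j) ∧ ∑ i, x i / (∑ j, x j) = 1 :=
  ⟨fun i => div_nonneg (hx i) (sum_nonneg fun j _ => hx j), by
    rw [← sum_div, div_self hm]⟩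

theorem massBdd_homExt {f : (Fin q → ℝ) → ℝ} {K : ℝ}
    (hf : ∀ u : Fin q → ℝ, (∀ i, 0 ≤ u i) → ∑ i, u i = 1 → |f u| ≤ K) :
    MassBdd (homExt f) := by
  refine ⟨K, fun x hx => ?_⟩
  have hm : 0 ≤ ∑ i, x i := sum_nonneg fun j _ => hx j
  rcases eq_or_ne (∑ i, x i) 0 with h | h
  · simp [homExt, h]
  · obtain ⟨h1, h2⟩ := exists_unit hx h
    rw [homExt, abs_mul, abs_of_nonneg hm, mul_comm K]
    exact mul_le_mul_of_nonneg_left (hf _ h1 h2) hm

theorem sqDev_le_one {u : Fin q → ℝ} (h0 : ∀ i, 0 ≤ u i) (h1 : ∑ i, u i = 1) :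
    sqDev u ≤ 1 := by
  have hq : (q : ℝ) ≠ 0 := by
    rcases Nat.eq_zero_or_pos q with h | h
    · subst h; simp at h1
    · positivity
  have hsq : ∑ i, u i ^ 2 ≤ 1 := by
    calc ∑ i, u i ^ 2 ≤ ∑ i, u i := by
          refine sum_le_sum fun i _ => ?_
          have : u i ≤ 1 := h1 ▸ single_le_sum (fun j _ => h0 j) (mem_univ i)
          nlinarith [h0 i]
      _ = 1 := h1
  have : sqDev u = ∑ i, u i ^ 2 - 1 / q := by
    simp only [sqDev, sub_sq, sum_add_distrib, sum_sub_distrib, ← mul_sum, ← sum_mul, h1,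
      sum_const, card_univ, Fintype.card_fin, nsmul_eq_mul]
    field_simp
    ring
  have hpos : (0 : ℝ) ≤ 1 / q := by positivity
  linarith

theorem massBdd_SS : MassBdd (SS (q := q)) :=
  massBdd_homExt (K := 1) fun u h0 h1 => by
    rw [abs_of_nonneg (sum_nonneg fun i _ => sq_nonneg _)]
    exact sqDev_le_one h0 h1

theorem SS_nonneg {x : Fin q → ℝ} (hx : ∀ i, 0 ≤ x i) : 0 ≤ SS x :=
  mul_nonneg (sum_nonneg fun i _ => hx i) (sum_nonneg fun i _ => sq_nonneg _)

theorem SS_edge (lam : ℝ) (X : ι → Fin q → ℝ) (o : ι) :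
    SS (edge lam X o) = lam ^ 2 * SS (X o) := by
  simp only [SS, homExt, edge_mass]
  rcases eq_or_ne (∑ i, X o i) 0 with h | h
  · simp [h]
  · simp only [sqDev, mul_sum]
    refine sum_congr rfl fun i _ => ?_
    rw [edge_apply]
    have hq : (q : ℝ) ≠ 0 := by exact_mod_cast (i.pos).ne'
    field_simp
    ring

theorem total_SS_edge (lam : ℝ) (X : ι → Fin q → ℝ) :
    total SS (edge lam X) = lam ^ 2 * total SS X := by
  simp [total, SS_edge, tsum_mul_left]

theorem hasSum_avg {X : ι → Fin q → ℝ} {Y : κ → Fin q → ℝ} (hX : IsChan X) (hY : IsChan Y)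
    (hYs : IsSymm Y) {F : (Fin q → ℝ) → ℝ} (hF : MassBdd F) :
    HasSum (fun p : ι × κ => ∑ s : Equiv.Perm (Fin q), F (fun i => X p.1 i * Y p.2 (s i)))
      ((q.factorial : ℝ) * total F (mulChan X Y)) := by
  have hXY := hX.mul hY
  have hFs : Summable fun p => F (mulChan X Y p) := hXY.summable hF
  have key : ∀ s : Equiv.Perm (Fin q),
      HasSum (fun p : ι × κ => F (fun i => X p.1 i * Y p.2 (s i)))
        (total F (mulChan X Y)) := by
    intro s
    obtain ⟨e, he⟩ := hYs s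
    let G : ι × κ → ℝ := fun p => F (fun i => X p.1 i * Y p.2 (s i))
    let E : ι × κ ≃ ι × κ := Equiv.prodCongr (Equiv.refl ι) e
    have hEG : G ∘ E = fun p => F (mulChan X Y p) := by
      funext p
      simp only [G, E, Function.comp_apply, Equiv.prodCongr_apply, Prod.map_fst, Prod.map_snd,
        Equiv.coe_refl, id_eq, he]
      rfl
    have h : HasSum (G ∘ E) (total F (mulChan X Y)) := by
      rw [hEG]
      exact hFs.hasSum
    exact E.hasSum_iff.1 h
  have hL := hasSum_sum (s := (univ : Finset (Equiv.Perm (Fin q)))) fun s _ => key s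
  simp only [sum_const, card_univ, Fintype.card_perm, Fintype.card_fin, nsmul_eq_mul] at hL
  exact hL

theorem hasSum_bilin {X : ι → Fin q → ℝ} {Y : κ → Fin q → ℝ} (hX : IsChan X) (hY : IsChan Y)
    {r : ℕ} (f g : Fin r → (Fin q → ℝ) → ℝ) (hf : ∀ l, MassBdd (f l))
    (hg : ∀ l, MassBdd (g l)) :
    HasSum (fun p : ι × κ => (q.factorial : ℝ) * ∑ l, f l (X p.1) * g l (Y p.2))
      ((q.factorial : ℝ) * ∑ l, total (f l) X * total (g l) Y) := by
  have hterm : ∀ l : Fin r, HasSum (fun p : ι × κ => f l (X p.1) * g l (Y p.2))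
      (total (f l) X * total (g l) Y) := by
    intro l
    have h1 : HasSum (fun o => f l (X o)) (total (f l) X) := (hX.summable (hf l)).hasSum
    have h2 : HasSum (fun o => g l (Y o)) (total (g l) Y) := (hY.summable (hg l)).hasSum
    have hs : Summable fun p : ι × κ => f l (X p.1) * g l (Y p.2) :=
      summable_mul_of_summable_norm (f := fun o => f l (X o)) (g := fun o => g l (Y o))
        (summable_norm_iff.2 h1.summable) (summable_norm_iff.2 h2.summable)
    exact HasSum.mul (f := fun o => f l (X o)) (g := fun o => g l (Y o)) h1 h2 hs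
  exact HasSum.mul_left _ (hasSum_sum fun l _ => hterm l)

/-- The averaging principle for symmetric channels: a pointwise bound, averaged over
relabellings of the second factor, gives a bound for the product channel. -/
theorem total_mul_le {X : ι → Fin q → ℝ} {Y : κ → Fin q → ℝ} (hX : IsChan X) (hY : IsChan Y)
    (hYs : IsSymm Y) {F : (Fin q → ℝ) → ℝ} (hF : MassBdd F) {r : ℕ}
    (f g : Fin r → (Fin q → ℝ) → ℝ) (hf : ∀ l, MassBdd (f l)) (hg : ∀ l, MassBdd (g l))
    (hpt : ∀ x y : Fin q → ℝ, (∀ i, 0 ≤ x i) → (∀ i, 0 ≤ y i) →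
      ∑ s : Equiv.Perm (Fin q), F (fun i => x i * y (s i))
        ≤ (q.factorial : ℝ) * ∑ l, f l x * g l y) :
    total F (mulChan X Y) ≤ ∑ l, total (f l) X * total (g l) Y := by
  have hL := hasSum_avg hX hY hYs hF
  have hR := hasSum_bilin hX hY f g hf hg
  have hle : (q.factorial : ℝ) * total F (mulChan X Y)
      ≤ (q.factorial : ℝ) * ∑ l, total (f l) X * total (g l) Y :=
    hasSum_le (f := fun p : ι × κ =>
        ∑ s : Equiv.Perm (Fin q), F (fun i => X p.1 i * Y p.2 (s i)))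
      (g := fun p : ι × κ => (q.factorial : ℝ) * ∑ l, f l (X p.1) * g l (Y p.2))
      (fun p => hpt (X p.1) (Y p.2) (hX.nonneg _) (hY.nonneg _)) hL hR
  exact le_of_mul_le_mul_left hle (Nat.cast_pos.2 q.factorial_pos)

/-- The same with the second factor observed through an edge. -/
theorem total_mulEdge_le {X : ι → Fin q → ℝ} {Y : κ → Fin q → ℝ} (hX : IsChan X) (hY : IsChan Y)
    (hYs : IsSymm Y) {lam : ℝ} (hl : Adm q lam)
    {F : (Fin q → ℝ) → ℝ} (hF : MassBdd F) {r : ℕ}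
    (f g : Fin r → (Fin q → ℝ) → ℝ) (hf : ∀ l, MassBdd (f l)) (hg : ∀ l, MassBdd (g l))
    (hpt : ∀ x y : Fin q → ℝ, (∀ i, 0 ≤ x i) → (∀ i, 0 ≤ y i) →
      ∑ s : Equiv.Perm (Fin q), F (fun i => x i * ∑ j, potts q lam (s i) j * y j)
        ≤ (q.factorial : ℝ) * ∑ l, f l x * g l y) :
    total F (mulChan X (edge lam Y)) ≤ ∑ l, total (f l) X * total (g l) Y := by
  have hle : (q.factorial : ℝ) * total F (mulChan X (edge lam Y))
      ≤ (q.factorial : ℝ) * ∑ l, total (f l) X * total (g l) Y :=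
    hasSum_le (f := fun p : ι × κ =>
        ∑ s : Equiv.Perm (Fin q), F (fun i => X p.1 i * edge lam Y p.2 (s i)))
      (g := fun p : ι × κ => (q.factorial : ℝ) * ∑ l, f l (X p.1) * g l (Y p.2))
      (fun p => hpt (X p.1) (Y p.2) (hX.nonneg _) (hY.nonneg _))
      (hasSum_avg hX (hY.edge' hl) (hYs.edge' lam) hF) (hasSum_bilin hX hY f g hf hg)
  exact le_of_mul_le_mul_left hle (Nat.cast_pos.2 q.factorial_pos)

/-- The same with the pointwise bound required only on the simplex. -/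
theorem total_mul_le_simplex {X : ι → Fin q → ℝ} {Y : κ → Fin q → ℝ} (hX : IsChan X)
    (hY : IsChan Y) (hYs : IsSymm Y) {F : (Fin q → ℝ) → ℝ} {K : ℝ}
    (hF : ∀ u : Fin q → ℝ, (∀ i, 0 ≤ u i) → ∑ i, u i = 1 → |F u| ≤ K) {r : ℕ}
    (f g : Fin r → (Fin q → ℝ) → ℝ) {Kf Kg : ℝ}
    (hf : ∀ l, ∀ u : Fin q → ℝ, (∀ i, 0 ≤ u i) → ∑ i, u i = 1 → |f l u| ≤ Kf)
    (hg : ∀ l, ∀ u : Fin q → ℝ, (∀ i, 0 ≤ u i) → ∑ i, u i = 1 → |g l u| ≤ Kg)
    (hpt : ∀ u v : Fin q → ℝ, (∀ i, 0 ≤ u i) → ∑ i, u i = 1 → (∀ i, 0 ≤ v i) →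
      ∑ i, v i = 1 →
      ∑ s : Equiv.Perm (Fin q), homExt F (fun i => u i * v (s i))
        ≤ (q.factorial : ℝ) * ∑ l, f l u * g l v) :
    total (homExt F) (mulChan X Y)
      ≤ ∑ l, total (homExt (f l)) X * total (homExt (g l)) Y := by
  refine total_mul_le hX hY hYs (massBdd_homExt hF) _ _ (fun l => massBdd_homExt (hf l))
    (fun l => massBdd_homExt (hg l)) fun x y hx hy => ?_
  rcases eq_or_ne (∑ i, x i) 0 with h | h
  · have hx0 : ∀ i, x i = 0 := fun i =>
      (sum_eq_zero_iff_of_nonneg fun j _ => hx j).1 h i (mem_univ i)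
    simp [homExt, hx0]
  rcases eq_or_ne (∑ i, y i) 0 with h' | h'
  · have hy0 : ∀ i, y i = 0 := fun i =>
      (sum_eq_zero_iff_of_nonneg fun j _ => hy j).1 h' i (mem_univ i)
    simp [homExt, hy0]
  obtain ⟨u0, u1⟩ := exists_unit hx h
  obtain ⟨v0, v1⟩ := exists_unit hy h'
  have key := mul_le_mul_of_nonneg_left (hpt _ _ u0 u1 v0 v1)
    (mul_nonneg (sum_nonneg fun i _ => hx i) (sum_nonneg fun i _ => hy i) :
      (0 : ℝ) ≤ (∑ i, x i) * ∑ i, y i)
  rw [mul_sum] at key
  have hsc : ∀ s : Equiv.Perm (Fin q), homExt F (fun i => x i * y (s i))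
      = (∑ i, x i) * (∑ i, y i) *
        homExt F (fun i => x i / (∑ j, x j) * (y (s i) / ∑ j, y j)) := by
    intro s
    rw [← homExt_smul]
    congr 1
    funext i
    field_simp
  refine (le_of_eq (sum_congr rfl fun s _ => hsc s)).trans (key.trans (le_of_eq ?_))
  simp only [homExt]
  generalize ∑ i, x i = a
  generalize ∑ i, y i = b
  rw [← mul_assoc, mul_comm (a * b), mul_assoc, mul_sum]
  exact congrArg _ (sum_congr rfl fun l _ => by ring)

/-- The shrinking of the simplex by an edge. -/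
noncomputable def shrink (lam : ℝ) (v : Fin q → ℝ) (i : Fin q) : ℝ :=
  lam * v i + (1 - lam) / q

/-- The same on the simplex, for a second factor observed through an edge. -/
theorem total_mulEdge_le_simplex {X : ι → Fin q → ℝ} {Y : κ → Fin q → ℝ} (hX : IsChan X)
    (hY : IsChan Y) (hYs : IsSymm Y) {lam : ℝ} (hl : Adm q lam)
    {F : (Fin q → ℝ) → ℝ} {K : ℝ}
    (hF : ∀ u : Fin q → ℝ, (∀ i, 0 ≤ u i) → ∑ i, u i = 1 → |F u| ≤ K) {r : ℕ}
    (f g : Fin r → (Fin q → ℝ) → ℝ) {Kf Kg : ℝ}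
    (hf : ∀ l, ∀ u : Fin q → ℝ, (∀ i, 0 ≤ u i) → ∑ i, u i = 1 → |f l u| ≤ Kf)
    (hg : ∀ l, ∀ u : Fin q → ℝ, (∀ i, 0 ≤ u i) → ∑ i, u i = 1 → |g l u| ≤ Kg)
    (hpt : ∀ u v : Fin q → ℝ, (∀ i, 0 ≤ u i) → ∑ i, u i = 1 → (∀ i, 0 ≤ v i) →
      ∑ i, v i = 1 →
      ∑ s : Equiv.Perm (Fin q), homExt F (fun i => u i * shrink lam v (s i))
        ≤ (q.factorial : ℝ) * ∑ l, f l u * g l v) :
    total (homExt F) (mulChan X (edge lam Y))
      ≤ ∑ l, total (homExt (f l)) X * total (homExt (g l)) Y := by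
  refine total_mulEdge_le hX hY hYs hl (massBdd_homExt hF) _ _
    (fun l => massBdd_homExt (hf l)) (fun l => massBdd_homExt (hg l)) fun x y hx hy => ?_
  have hed : ∀ i, ∑ j, potts q lam i j * y j = lam * y i + (1 - lam) / q * ∑ j, y j :=
    fun i => edge_apply lam (fun _ : Unit => y) () i
  simp only [hed]
  rcases eq_or_ne (∑ i, x i) 0 with h | h
  · have hx0 : ∀ i, x i = 0 := fun i =>
      (sum_eq_zero_iff_of_nonneg fun j _ => hx j).1 h i (mem_univ i)
    simp [homExt, hx0]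
  rcases eq_or_ne (∑ i, y i) 0 with h' | h'
  · have hy0 : ∀ i, y i = 0 := fun i =>
      (sum_eq_zero_iff_of_nonneg fun j _ => hy j).1 h' i (mem_univ i)
    simp [homExt, hy0]
  obtain ⟨u0, u1⟩ := exists_unit hx h
  obtain ⟨v0, v1⟩ := exists_unit hy h'
  have key := mul_le_mul_of_nonneg_left (hpt _ _ u0 u1 v0 v1)
    (mul_nonneg (sum_nonneg fun i _ => hx i) (sum_nonneg fun i _ => hy i) :
      (0 : ℝ) ≤ (∑ i, x i) * ∑ i, y i)
  rw [mul_sum] at key
  have hsc : ∀ s : Equiv.Perm (Fin q),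
      homExt F (fun i => x i * (lam * y (s i) + (1 - lam) / q * ∑ j, y j))
      = (∑ i, x i) * (∑ i, y i) *
        homExt F (fun i => x i / (∑ j, x j) * shrink lam (fun k => y k / ∑ j, y j) (s i)) := by
    intro s
    rw [← homExt_smul]
    congr 1
    funext i
    unfold shrink
    field_simp
  refine (le_of_eq (sum_congr rfl fun s _ => hsc s)).trans (key.trans (le_of_eq ?_))
  simp only [homExt]
  generalize ∑ i, x i = a
  generalize ∑ i, y i = b
  rw [← mul_assoc, mul_comm (a * b), mul_assoc, mul_sum]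
  exact congrArg _ (sum_congr rfl fun l _ => by ring)

/-- The total of a functional after an edge. -/
theorem homExt_edge (f : (Fin q → ℝ) → ℝ) (lam : ℝ) (X : ι → Fin q → ℝ) (o : ι) :
    homExt f (edge lam X o) = homExt (fun v => f (shrink lam v)) (X o) := by
  simp only [homExt, edge_mass]
  rcases eq_or_ne (∑ i, X o i) 0 with h | h
  · simp [h]
  · congr 2
    funext i
    rw [edge_apply, shrink]
    field_simp

theorem total_nonneg_of_le {X : ι → Fin q → ℝ} (hX : IsChan X) {f g : (Fin q → ℝ) → ℝ} {a : ℝ}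
    (ha : 0 ≤ a) (hf : MassBdd (homExt f)) (hg : MassBdd (homExt g))
    (hle : ∀ u : Fin q → ℝ, (∀ i, 0 ≤ u i) → ∑ i, u i = 1 → a * f u ≤ g u)
    (h : 0 ≤ total (homExt f) X) : 0 ≤ total (homExt g) X := by
  refine le_trans (mul_nonneg ha h) ?_
  rw [total, ← tsum_mul_left]
  refine ((hX.summable hf).mul_left a).tsum_le_tsum (fun o => ?_) (hX.summable hg)
  rcases eq_or_ne (∑ i, X o i) 0 with h' | h'
  · simp [homExt, h']
  · obtain ⟨u0, u1⟩ := exists_unit (hX.nonneg o) h'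
    have := mul_le_mul_of_nonneg_left (hle _ u0 u1) (hX.mass_nonneg o)
    simp only [homExt]
    linarith

end Vale.Agent.P154.Tree
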