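import Vale.Agent.P154.Tree.Chan

/-!
# The subadditivity criterion for nonreconstruction on Galton–Watson trees
-/

namespace Vale.Agent.P154.Tree

open Finset Filter Topology

variable {q : ℕ} {ι κ : Type}

/-- An offspring law with mean `d`. -/
structure IsLaw (w : ℕ → ℝ) (d : ℝ) : Prop where
  nonneg : ∀ k, 0 ≤ w k
  hasSum : HasSum w 1
  mean : HasSum (fun k : ℕ => (k : ℝ) * w k) d

/-- The hypotheses of the criterion at edge parameter `lam`: a class of symmetric channels
(those with nonnegative total of `homExt φ`) closed under the tree operations, on which the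
chi-square information is subadditive, with slack `c` of order `e`. -/
structure Good (q : ℕ) (lam : ℝ) (φ : (Fin q → ℝ) → ℝ) (c : ℝ) (e : ℕ) :
    Prop where
  bdd : ∃ K : ℝ, ∀ u : Fin q → ℝ, (∀ i, 0 ≤ u i) → ∑ i, u i = 1 → |φ u| ≤ K
  uniform : 0 ≤ homExt φ (fun _ : Fin q => 1)
  leaf : 0 ≤ ∑ i : Fin q, homExt φ (fun j => if i = j then 1 else 0)
  edge : ∀ (ι : Type) (Y : ι → Fin q → ℝ), IsChan Y → IsSymm Y →
    0 ≤ total (homExt φ) Y → 0 ≤ total (homExt φ) (edge lam Y)
  mulPhi : ∀ (ι κ : Type) (X : ι → Fin q → ℝ) (Y : κ → Fin q → ℝ),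
    IsChan X → IsSymm X → 0 ≤ total (homExt φ) X →
    IsChan Y → IsSymm Y → 0 ≤ total (homExt φ) Y →
    0 ≤ total (homExt φ) (mulChan X (Tree.edge lam Y))
  mulSS : ∀ (ι κ : Type) (X : ι → Fin q → ℝ) (Y : κ → Fin q → ℝ),
    IsChan X → IsSymm X → 0 ≤ total (homExt φ) X →
    IsChan Y → IsSymm Y → 0 ≤ total (homExt φ) Y →
    total SS (mulChan X (Tree.edge lam Y))
      ≤ total SS X + total SS (Tree.edge lam Y) - c * (total SS X * total SS (Tree.edge lam Y)) ^ e

/-- The channel of `k` independent observations of the same type. -/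
def piChan (k : ℕ) (Y : ι → Fin q → ℝ) : (Fin k → ι) → Fin q → ℝ :=
  fun f i => ∏ a, Y (f a) i

theorem total_reindex {F : (Fin q → ℝ) → ℝ} (e : κ ≃ ι) (X : ι → Fin q → ℝ) :
    total F (fun o => X (e o)) = total F X :=
  e.tsum_eq (fun o => F (X o))

theorem IsChan.reindex {X : ι → Fin q → ℝ} (hX : IsChan X) (e : κ ≃ ι) :
    IsChan (fun o => X (e o)) :=
  ⟨fun o i => hX.nonneg _ i, fun i => (Equiv.hasSum_iff (f := fun o => X o i) e).2 (hX.hasSum i)⟩

theorem IsSymm.reindex {X : ι → Fin q → ℝ} (hX : IsSymm X) (e : κ ≃ ι) :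
    IsSymm (fun o => X (e o)) := by
  intro σ
  obtain ⟨g, hg⟩ := hX σ
  exact ⟨e.trans (g.trans e.symm), fun o i => by simp [hg]⟩

/-- Adding one observation. -/
def snocEquiv (ι : Type) (k : ℕ) : (Fin (k + 1) → ι) ≃ (Fin k → ι) × ι :=
  (Fin.consEquiv fun _ : Fin (k + 1) => ι).symm.trans (Equiv.prodComm _ _)

theorem piChan_succ (k : ℕ) (Y : ι → Fin q → ℝ) :
    piChan (k + 1) Y = fun f => mulChan (piChan k Y) Y (snocEquiv ι k f) := by
  funext f i
  simp [piChan, mulChan, snocEquiv, Fin.prod_univ_succ, Fin.tail, mul_comm]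

theorem isChan_piChan {Y : ι → Fin q → ℝ} (hY : IsChan Y) :
    ∀ k, IsChan (piChan k Y)
  | 0 => ⟨fun f i => by simp [piChan], fun i => by simp [piChan]⟩
  | k + 1 => by
    rw [piChan_succ]
    exact ((isChan_piChan hY k).mul hY).reindex _

theorem isSymm_piChan {Y : ι → Fin q → ℝ} (hY : IsSymm Y) (k : ℕ) :
    IsSymm (piChan k Y) := by
  intro σ
  obtain ⟨e, he⟩ := hY σ
  exact ⟨Equiv.piCongrRight fun _ => e, fun f i => by simp [piChan, he]⟩

theorem lik_succ (w : ℕ → ℝ) (lam : ℝ) (n : ℕ) (o : Obs q (n + 1)) :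
    lik q w lam (n + 1) o
      = fun i => w o.1 * piChan o.1 (edge lam (lik q w lam n)) o.2 i := rfl

theorem total_succ_term {f : (Fin q → ℝ) → ℝ} (w : ℕ → ℝ) (lam : ℝ) (n k : ℕ) :
    (∑' g : Fin k → Obs q n, homExt f (lik q w lam (n + 1) ⟨k, g⟩))
      = w k * total (homExt f) (piChan k (edge lam (lik q w lam n))) := by
  rw [total, ← tsum_mul_left]
  refine tsum_congr fun g => ?_
  exact homExt_smul f (piChan k (edge lam (lik q w lam n)) g)

variable {w : ℕ → ℝ} {d lam : ℝ}

theorem isChan_lik (hw : IsLaw w d) (hl : Adm q lam) :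
    ∀ n, IsChan (lik q w lam n)
  | 0 => ⟨fun o i => by simp only [lik]; split_ifs <;> norm_num, fun i => by
      show HasSum (fun o : Fin q => if o = i then (1 : ℝ) else 0) 1
      exact hasSum_ite_eq i 1⟩
  | n + 1 => by
    have hY := ((isChan_lik hw hl n)).edge' hl
    have hZ := fun k => isChan_piChan hY k
    refine ⟨fun o i => mul_nonneg (hw.nonneg _) ((hZ _).nonneg _ i), fun i => ?_⟩
    have hk : ∀ k, HasSum (fun g : Fin k → Obs q n =>
        lik q w lam (n + 1) ⟨k, g⟩ i) (w k) := fun k => by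
      have h := ((hZ k).hasSum i).mul_left (w k)
      rw [mul_one] at h
      exact h
    have hnn : ∀ x : Σ k, (Fin k → Obs q n), 0 ≤ lik q w lam (n + 1) x i :=
      fun x => mul_nonneg (hw.nonneg _) ((hZ _).nonneg _ i)
    refine HasSum.sigma_of_hasSum hw.hasSum hk ?_
    refine (summable_sigma_of_nonneg hnn).2 ⟨fun k => (hk k).summable, ?_⟩
    exact hw.hasSum.summable.congr fun k => ((hk k).tsum_eq).symm

theorem isSymm_lik (w : ℕ → ℝ) (lam : ℝ) :
    ∀ n, IsSymm (lik q w lam n)
  | 0 => fun σ => ⟨σ, fun (o : Fin q) i => by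
      show (if σ o = σ i then (1 : ℝ) else 0) = if o = i then 1 else 0
      simp [σ.injective.eq_iff]⟩
  | n + 1 => by
    intro σ
    have h := fun k => isSymm_piChan ((isSymm_lik w lam n).edge' lam) k σ
    choose e he using h
    refine ⟨Equiv.sigmaCongrRight e, fun o i => ?_⟩
    rw [lik_succ, lik_succ]
    exact congrArg (w o.1 * ·) (he o.1 o.2 i)

theorem total_succ (hw : IsLaw w d) (hl : Adm q lam) {f : (Fin q → ℝ) → ℝ}
    (hf : MassBdd (homExt f)) (n : ℕ) :
    HasSum (fun k => w k * total (homExt f) (piChan k (edge lam (lik q w lam n))))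
      (total (homExt f) (lik q w lam (n + 1))) := by
  have hs : Summable fun o : (Σ k, (Fin k → Obs q n)) =>
      homExt f (lik q w lam (n + 1) o) := (isChan_lik hw hl (n + 1)).summable hf
  have hk : ∀ k, HasSum (fun g : Fin k → Obs q n => homExt f (lik q w lam (n + 1) ⟨k, g⟩))
      (w k * total (homExt f) (piChan k (edge lam (lik q w lam n)))) := fun k => by
    rw [← total_succ_term]
    exact (hs.sigma_factor k).hasSum
  exact HasSum.sigma hs.hasSum hk

theorem total_SS_nonneg {X : ι → Fin q → ℝ} (hX : IsChan X) : 0 ≤ total SS X :=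
  tsum_nonneg fun o => SS_nonneg (hX.nonneg o)

theorem SS_one : SS (fun _ : Fin q => (1 : ℝ)) = 0 := by
  rcases Nat.eq_zero_or_pos q with h | h
  · subst h; simp [SS, homExt]
  · simp [SS, homExt, sqDev]

theorem total_piChan_zero (F : (Fin q → ℝ) → ℝ) (Y : ι → Fin q → ℝ) :
    total F (piChan 0 Y) = F (fun _ => 1) := by
  rw [total, tsum_eq_single (fun a : Fin 0 => a.elim0)]
  · exact congrArg F (funext fun i => by simp [piChan])
  · exact fun b hb => (hb (funext fun a => a.elim0)).elim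

theorem total_piChan_one (F : (Fin q → ℝ) → ℝ) (Y : ι → Fin q → ℝ) :
    total F (piChan 1 Y) = total F Y := by
  rw [← total_reindex (F := F) (Equiv.funUnique (Fin 1) ι) Y]
  exact congrArg (total F) (funext fun f => funext fun i => by simp [piChan])

variable {φ : (Fin q → ℝ) → ℝ} {c : ℝ} {e : ℕ}

/-- The products at a vertex. -/
theorem good_piChan (hG : Good q lam φ c e) (hc : 0 ≤ c) (hl : Adm q lam)
    {Y : ι → Fin q → ℝ} (hY : IsChan Y) (hYs : IsSymm Y)
    (hYp : 0 ≤ total (homExt φ) Y) (k : ℕ) :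
    0 ≤ total (homExt φ) (piChan k (edge lam Y)) ∧
    total SS (piChan k (edge lam Y))
      ≤ k * total SS (edge lam Y) - (if 2 ≤ k then c * (total SS (edge lam Y) ^ 2) ^ e else 0) := by
  induction k with
  | zero => simp [total_piChan_zero, SS_one, hG.uniform]
  | succ k ih =>
    have hE := hY.edge' hl
    have hX := isChan_piChan hE k
    have hXs := isSymm_piChan (hYs.edge' lam) k
    have hP := hG.mulPhi _ _ _ _ hX hXs ih.1 hY hYs hYp
    have hS := hG.mulSS _ _ _ _ hX hXs ih.1 hY hYs hYp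
    have hn := total_SS_nonneg hE
    have hXn := total_SS_nonneg hX
    rw [piChan_succ, total_reindex, total_reindex]
    refine ⟨hP, ?_⟩
    rcases k with _ | _ | k
    · simp only [total_piChan_zero, SS_one] at hS
      norm_num
      have : 0 ≤ c * (0 * total SS (edge lam Y)) ^ e := mul_nonneg hc (by simp)
      linarith
    · have e1 : total SS (piChan (0 + 1) (edge lam Y)) = total SS (edge lam Y) :=
        total_piChan_one SS (edge lam Y)
      rw [e1] at hS
      norm_num
      rw [← sq] at hS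
      linarith
    · have h2 : 2 ≤ k + 1 + 1 := by omega
      have h3 : 2 ≤ k + 1 + 1 + 1 := by omega
      have hcp := mul_nonneg hc (pow_nonneg (mul_nonneg hXn hn) e)
      have hh := ih.2
      rw [if_pos h2] at hh
      rw [if_pos h3]
      push_cast at hh ⊢
      linarith

/-- One generation. -/
theorem good_lik (hG : Good q lam φ c e) (hc : 0 ≤ c) (hw : IsLaw w d) (hl : Adm q lam) : ∀ n, 0 ≤ total (homExt φ) (lik q w lam n)
  | 0 => by
    show 0 ≤ ∑' o : Fin q, homExt φ (fun j => if o = j then 1 else 0)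
    rw [tsum_fintype]
    exact hG.leaf
  | n + 1 => by
    obtain ⟨K, hK⟩ := hG.bdd
    have h := total_succ hw hl (massBdd_homExt hK) n
    exact h.nonneg fun k => mul_nonneg (hw.nonneg k)
      (good_piChan hG hc hl (isChan_lik hw hl n) (isSymm_lik w lam n)
        (good_lik hG hc hw hl n) k).1

/-- The probability of at least two children. -/
noncomputable def branchProb (w : ℕ → ℝ) : ℝ := ∑' k, if 2 ≤ k then w k else 0

theorem step (hG : Good q lam φ c e) (hc : 0 ≤ c) (hw : IsLaw w d) (hl : Adm q lam) (n : ℕ) :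
    total SS (lik q w lam (n + 1)) ≤ d * lam ^ 2 * total SS (lik q w lam n)
      - c * branchProb w * ((lam ^ 2 * total SS (lik q w lam n)) ^ 2) ^ e := by
  have hT : HasSum (fun k => w k * total SS (piChan k (edge lam (lik q w lam n))))
      (total SS (lik q w lam (n + 1))) :=
    total_succ hw hl (f := sqDev) massBdd_SS n
  have hB : HasSum (fun k : ℕ => if 2 ≤ k then w k else 0) (branchProb w) :=
    (Summable.of_nonneg_of_le (fun k => by split_ifs <;> simp [hw.nonneg k])
      (fun k => by split_ifs <;> simp [hw.nonneg k]) hw.hasSum.summable).hasSum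
  have hR := (hw.mean.mul_right (lam ^ 2 * total SS (lik q w lam n))).sub
    (hB.mul_right (c * ((lam ^ 2 * total SS (lik q w lam n)) ^ 2) ^ e))
  refine (hasSum_le (fun k => ?_) hT hR).trans_eq (by ring)
  have hk := (good_piChan hG hc hl (isChan_lik hw hl n) (isSymm_lik w lam n)
    (good_lik hG hc hw hl n) k).2
  rw [total_SS_edge] at hk
  refine (mul_le_mul_of_nonneg_left hk (hw.nonneg k)).trans_eq ?_
  split_ifs <;> ring

theorem adv_nonneg (q : ℕ) (w : ℕ → ℝ) (lam : ℝ) (n : ℕ) : 0 ≤ adv q w lam n :=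
  tsum_nonneg fun o => mul_nonneg (by positivity) (sum_nonneg fun i _ => abs_nonneg _)

theorem abs_dev_le {ε : ℝ} (hε : 0 < ε) (x : Fin q → ℝ) (hx : ∀ i, 0 ≤ x i) :
    ∑ i, |x i - (∑ j, x j) / q| ≤ q * ε / 2 * (∑ i, x i) + 1 / (2 * ε) * SS x := by
  set m := ∑ j, x j with hm
  rcases eq_or_ne m 0 with h | h
  · have hx0 : ∀ i, x i = 0 := fun i =>
      (sum_eq_zero_iff_of_nonneg fun j _ => hx j).1 h i (mem_univ i)
    simp [SS, homExt, hx0, h]
  have hmn : 0 ≤ m := sum_nonneg fun j _ => hx j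
  have key : ∀ i : Fin q,
      |x i - m / q| ≤ ε / 2 * m + 1 / (2 * ε) * (m * (x i / m - 1 / q) ^ 2) := by
    intro i
    have e : x i - m / q = m * (x i / m - 1 / q) := by field_simp
    rw [e, abs_mul, abs_of_nonneg hmn]
    generalize x i / m - 1 / (q : ℝ) = t
    have : |t| ≤ ε / 2 + 1 / (2 * ε) * t ^ 2 := by
      rw [← sq_abs t]
      field_simp
      nlinarith [sq_nonneg (|t| - ε)]
    calc m * |t| ≤ m * (ε / 2 + 1 / (2 * ε) * t ^ 2) := mul_le_mul_of_nonneg_left this hmn
      _ = _ := by ring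
  refine (sum_le_sum fun i _ => key i).trans_eq ?_
  simp only [sum_add_distrib, sum_const, card_univ, Fintype.card_fin, nsmul_eq_mul, SS, homExt,
    sqDev, ← hm, mul_sum]
  congr 1
  ring

theorem adv_le (hw : IsLaw w d) (hl : Adm q lam) {ε : ℝ} (hε : 0 < ε) (n : ℕ) :
    adv q w lam n ≤ 1 / (2 * (q : ℝ)) *
      (q * ε / 2 * q + 1 / (2 * ε) * total SS (lik q w lam n)) := by
  have hC := isChan_lik (q := q) hw hl n
  have hS : HasSum (fun o => SS (lik q w lam n o)) (total SS (lik q w lam n)) :=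
    (hC.summable massBdd_SS).hasSum
  have hR := ((hC.hasSum_mass.mul_left ((q : ℝ) * ε / 2)).add
    (hS.mul_left (1 / (2 * ε)))).mul_left (1 / (2 * (q : ℝ)))
  have hle : ∀ o, 1 / (2 * (q : ℝ)) * ∑ i, |lik q w lam n o i - (∑ j, lik q w lam n o j) / q|
      ≤ 1 / (2 * (q : ℝ)) * (q * ε / 2 * (∑ i, lik q w lam n o i)
        + 1 / (2 * ε) * SS (lik q w lam n o)) := fun o =>
    mul_le_mul_of_nonneg_left (abs_dev_le hε _ (hC.nonneg o)) (by positivity)
  have hnn : ∀ o, 0 ≤ 1 / (2 * (q : ℝ)) *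
      ∑ i, |lik q w lam n o i - (∑ j, lik q w lam n o j) / q| :=
    fun o => mul_nonneg (by positivity) (sum_nonneg fun i _ => abs_nonneg _)
  exact hasSum_le hle (Summable.of_nonneg_of_le hnn hle hR.summable).hasSum hR

/-- Nonreconstruction from the criterion. -/
theorem tendsto_adv_zero (hG : Good q lam φ c e) (hc : 0 ≤ c) (hw : IsLaw w d) (hl : Adm q lam)
    (hd : d * lam ^ 2 < 1 ∨ (d * lam ^ 2 ≤ 1 ∧ 0 < c ∧ 0 < branchProb w)) :
    Tendsto (adv q w lam) atTop (𝓝 0) := by
  set x : ℕ → ℝ := fun n => total SS (lik q w lam n) with hx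
  have hxn : ∀ n, 0 ≤ x n := fun n => total_SS_nonneg (isChan_lik hw hl n)
  have hB : 0 ≤ branchProb w := tsum_nonneg fun k => by split_ifs <;> simp [hw.nonneg k]
  have hstep : ∀ n, x (n + 1)
      ≤ d * lam ^ 2 * x n - c * branchProb w * ((lam ^ 2 * x n) ^ 2) ^ e :=
    fun n => step hG hc hw hl n
  have hd0 : 0 ≤ d := hw.mean.nonneg fun k => mul_nonneg (Nat.cast_nonneg k) (hw.nonneg k)
  have hd1 : d * lam ^ 2 ≤ 1 := hd.elim le_of_lt fun h => h.1
  have hanti : Antitone x := antitone_nat_of_succ_le fun n => by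
    have := hstep n
    have h2 : 0 ≤ c * branchProb w * ((lam ^ 2 * x n) ^ 2) ^ e := by positivity
    nlinarith [hxn n]
  have hbdd : BddBelow (Set.range x) := ⟨0, by rintro _ ⟨n, rfl⟩; exact hxn n⟩
  have hlim := tendsto_atTop_ciInf hanti hbdd
  set L := ⨅ n, x n
  have hL0 : 0 ≤ L := ge_of_tendsto' hlim hxn
  have hL : L ≤ d * lam ^ 2 * L - c * branchProb w * ((lam ^ 2 * L) ^ 2) ^ e :=
    le_of_tendsto_of_tendsto' (hlim.comp (tendsto_add_atTop_nat 1))
      ((hlim.const_mul _).sub ((((hlim.const_mul _).pow 2).pow e).const_mul _)) hstep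
  have hLz : L = 0 := by
    by_contra hne
    have hLp : 0 < L := lt_of_le_of_ne hL0 (Ne.symm hne)
    have hcb : 0 ≤ c * branchProb w * ((lam ^ 2 * L) ^ 2) ^ e := by positivity
    rcases hd with h | ⟨h, hcp, hbp⟩
    · nlinarith
    · rcases eq_or_ne lam 0 with hz | hz
      · subst hz; nlinarith
      · have : 0 < c * branchProb w * ((lam ^ 2 * L) ^ 2) ^ e := by positivity
        nlinarith
  rw [hLz] at hlim
  refine squeeze_zero_norm (a := fun n => adv q w lam n) (fun n => ?_) ?_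
  · rw [Real.norm_eq_abs, abs_of_nonneg (adv_nonneg q w lam n)]
  refine tendsto_order.2 ⟨fun b hb => Eventually.of_forall fun n =>
    lt_of_lt_of_le hb (adv_nonneg q w lam n), fun b hb => ?_⟩
  rcases Nat.eq_zero_or_pos q with hq | hq
  · refine Eventually.of_forall fun n => lt_of_le_of_lt (le_of_eq ?_) hb
    subst hq
    simp [adv]
  have hq' : (0 : ℝ) < q := by exact_mod_cast hq
  obtain ⟨ε, hε, hεb⟩ : ∃ ε > 0, (1 / (2 * (q : ℝ)) * (q * ε / 2 * q)) < b / 2 := by
    refine ⟨b / (q + 1), by positivity, ?_⟩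
    field_simp
    nlinarith
  have hev := (tendsto_order.1 ((hlim.const_mul (1 / (2 * (q : ℝ)) * (1 / (2 * ε)))))).2 (b / 2)
    (by simp only [mul_zero]; positivity)
  filter_upwards [hev] with n hn
  calc adv q w lam n ≤ _ := adv_le hw hl hε n
    _ < b := by
      have : x n = total SS (lik q w lam n) := rfl
      nlinarith

end Vale.Agent.P154.Tree
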