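import Mathlib.Algebra.BigOperators.Fin
import Mathlib.Topology.Algebra.InfiniteSum.Basic
import Mathlib.Topology.Algebra.InfiniteSum.Real
import Mathlib.Data.Real.Basic
import Mathlib.Analysis.Complex.Exponential
import Mathlib.Analysis.SpecificLimits.Basic

/-!
# Broadcasting on Galton–Watson trees: definitions

An observation at depth `n` is an ordered tree truncated at depth `n`, together with the
spins at depth `n`. The offspring law is `w`; the `d`-ary tree is the point mass at `d`.
-/

namespace Vale.Agent.P154.Tree

open Finset

/-- The Potts channel: probability that a child has spin `j` given parent spin `i`. -/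
noncomputable def potts (q : ℕ) (lam : ℝ) (i j : Fin q) : ℝ :=
  (if i = j then lam else 0) + (1 - lam) / q

/-- Observations at depth `n`. -/
def Obs (q : ℕ) : ℕ → Type
  | 0 => Fin q
  | n + 1 => Σ k : ℕ, (Fin k → Obs q n)

/-- Probability of an observation given the spin of the root. -/
noncomputable def lik (q : ℕ) (w : ℕ → ℝ) (lam : ℝ) : (n : ℕ) → Obs q n → Fin q → ℝ
  | 0, o, i => if (show Fin q from o) = i then 1 else 0
  | n + 1, ⟨k, f⟩, i => w k * ∏ c : Fin k, ∑ j, potts q lam i j * lik q w lam n (f c) j

/-- The expected total variation distance between the posterior law of the root and the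
uniform law, given the tree to depth `n` and the spins at depth `n`. -/
noncomputable def adv (q : ℕ) (w : ℕ → ℝ) (lam : ℝ) (n : ℕ) : ℝ :=
  ∑' o : Obs q n, (1 / (2 * (q : ℝ))) *
    ∑ i, |lik q w lam n o i - (∑ j, lik q w lam n o j) / q|

/-- Offspring law of the `d`-ary tree. -/
def regLaw (d : ℕ) (k : ℕ) : ℝ := if k = d then 1 else 0

/-- Poisson offspring law with mean `d`. -/
noncomputable def poissonLaw (d : ℝ) (k : ℕ) : ℝ :=
  Real.exp (-d) * d ^ k / k.factorial

end Vale.Agent.P154.Tree
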